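import Vale.Agent.P092.QT.H156.Tr
import Vale.Agent.P092.H796.Appr

/-!
P092 (helper796), block A-POS: fields on `G₁ × G₂`.
-/

set_option linter.all false

open scoped InnerProductSpace Topology ENNReal
open Filter ContinuousLinearMap MeasureTheory
open Vale.Agent.P092.H160
open Vale.Agent.P092.QT.H156.Sm

namespace Vale.Agent.P092.QT.H796

open Vale.Agent.P092.H796

section prodf

variable {Γ G₁ G₂ K : Type} [Group Γ] [Group G₁] [Group G₂]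
  [TopologicalSpace G₁] [TopologicalSpace G₂] [IsTopologicalGroup G₁] [IsTopologicalGroup G₂]
  [NormedAddCommGroup K] [InnerProductSpace ℂ K] [CompleteSpace K]
  {ρ : Γ →* (K →L[ℂ] K)} {ω : K} {ι₁ : Γ →* G₁} {ι₂ : Γ →* G₂}
  {a a' c c' : G₁ → K →L[ℂ] K} {b b' : G₂ → K →L[ℂ] K}

theorem fd_fst (ι₂ : Γ →* G₂) (ha : Fd ι₁ ρ a) :
    Fd (ι₁.prod ι₂) ρ (fun z : G₁ × G₂ => a z.1) where
  equiv := fun γ z => ha.equiv γ z.1
  bdd := by
    obtain ⟨C, hC⟩ := ha.bdd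
    exact ⟨C, fun z => hC z.1⟩
  rcont := fun ε hε => by
    obtain ⟨U, hU, h⟩ := ha.rcont ε hε
    refine ⟨Prod.fst ⁻¹' U, continuous_fst.continuousAt.preimage_mem_nhds hU, fun y hy x => ?_⟩
    exact h y.1 hy x.1

theorem fd_snd (ι₁ : Γ →* G₁) (hb : Fd ι₂ ρ b) :
    Fd (ι₁.prod ι₂) ρ (fun z : G₁ × G₂ => b z.2) where
  equiv := fun γ z => hb.equiv γ z.2
  bdd := by
    obtain ⟨C, hC⟩ := hb.bdd
    exact ⟨C, fun z => hC z.2⟩
  rcont := fun ε hε => by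
    obtain ⟨U, hU, h⟩ := hb.rcont ε hε
    refine ⟨Prod.snd ⁻¹' U, continuous_snd.continuousAt.preimage_mem_nhds hU, fun y hy x => ?_⟩
    exact h y.2 hy x.2

variable [MeasurableSpace G₁] [BorelSpace G₁] [SecondCountableTopology G₁]
  [MeasurableSpace G₂] [BorelSpace G₂] [SecondCountableTopology G₂]
  {μ₁ : Measure G₁} {μ₂ : Measure G₂} [SFinite μ₁] [SFinite μ₂]

/-- `∫ ‖b y ζ‖² = B ‖ζ‖²` for all `ζ`. -/
def Iso {G : Type} [MeasurableSpace G] (μ : Measure G) (b : G → K →L[ℂ] K) (B : ℝ≥0∞) : Prop :=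
  ∀ ζ : K, ∫⁻ y, ‖b y ζ‖ₑ ^ 2 ∂μ = B * ‖ζ‖ₑ ^ 2

theorem iso_nsq {G : Type} [MeasurableSpace G] {μ : Measure G} {b : G → K →L[ℂ] K} {B : ℝ≥0∞}
    (h : Iso μ b B) (hω : ‖ω‖ = 1) : nsq ω μ b = B := by
  unfold nsq
  rw [h ω, ← ofReal_norm_eq_enorm, hω]
  simp

theorem nsq_ba {B : ℝ≥0∞} (hb : Continuous b) (ha : Continuous a) (h : Iso μ₂ b B) :
    nsq ω (μ₁.prod μ₂) (fun z => b z.2 * a z.1) = B * nsq ω μ₁ a := by
  unfold nsq
  have hc : Continuous fun z : G₁ × G₂ => (b z.2 * a z.1) ω :=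
    ((hb.comp continuous_snd).mul (ha.comp continuous_fst)).clm_apply continuous_const
  rw [lintegral_prod _ (hc.enorm.measurable.pow_const 2).aemeasurable,
    ← lintegral_const_mul _ ((ha.clm_apply continuous_const).enorm.measurable.pow_const 2)]
  refine lintegral_congr fun x => ?_
  exact h (a x ω)

theorem nsq_ab {A : ℝ≥0∞} (hb : Continuous b) (ha : Continuous a) (h : Iso μ₁ a A) :
    nsq ω (μ₁.prod μ₂) (fun z => a z.1 * b z.2) = A * nsq ω μ₂ b := by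
  unfold nsq
  have hc : Continuous fun z : G₁ × G₂ => (a z.1 * b z.2) ω :=
    ((ha.comp continuous_fst).mul (hb.comp continuous_snd)).clm_apply continuous_const
  rw [lintegral_prod_symm _ (hc.enorm.measurable.pow_const 2).aemeasurable,
    ← lintegral_const_mul _ ((hb.clm_apply continuous_const).enorm.measurable.pow_const 2)]
  refine lintegral_congr fun y => ?_
  exact h (b y ω)

theorem l2_ba {B : ℝ≥0∞} (hb : Continuous b) (ha : Continuous a) (h : Iso μ₂ b B) (hB : B ≠ ∞)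
    (h2 : L2 ω μ₁ a) : L2 ω (μ₁.prod μ₂) (fun z => b z.2 * a z.1) := by
  refine l2_of_nsq ((hb.comp continuous_snd).mul (ha.comp continuous_fst)) ?_
  rw [nsq_ba hb ha h]
  exact ENNReal.mul_lt_top hB.lt_top (nsq_lt_top h2)

theorem l2_ab {A : ℝ≥0∞} (hb : Continuous b) (ha : Continuous a) (h : Iso μ₁ a A) (hA : A ≠ ∞)
    (h2 : L2 ω μ₂ b) : L2 ω (μ₁.prod μ₂) (fun z => a z.1 * b z.2) := by
  refine l2_of_nsq ((ha.comp continuous_fst).mul (hb.comp continuous_snd)) ?_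
  rw [nsq_ab hb ha h]
  exact ENNReal.mul_lt_top hA.lt_top (nsq_lt_top h2)

/-- good fields -/
structure Gd {Γ G K : Type} [Group Γ] [Group G] [TopologicalSpace G] [MeasurableSpace G]
    [NormedAddCommGroup K] [InnerProductSpace ℂ K] [CompleteSpace K] (ι : Γ →* G)
    (ρ : Γ →* (K →L[ℂ] K)) (ω : K) (μ : Measure G) (b : G → K →L[ℂ] K) : Prop where
  fd : Fd ι ρ b
  l2 : L2 ω μ b
  iso : Iso μ b (nsq ω μ b)
  iso' : Iso μ (fun x => adjoint (b x)) (nsq ω μ b)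

theorem Gd.ne_top {G : Type} [Group G] [TopologicalSpace G] [IsTopologicalGroup G]
    [MeasurableSpace G] {ι : Γ →* G}
    {μ : Measure G} {b : G → K →L[ℂ] K} (h : Gd ι ρ ω μ b) : nsq ω μ b ≠ ∞ :=
  (lintegral_sq_lt_top h.l2).ne

/-- the field `(c b a)*` on `G₁ × G₂` -/
noncomputable def zf (c : G₁ → K →L[ℂ] K) (b : G₂ → K →L[ℂ] K) (a : G₁ → K →L[ℂ] K)
    (z : G₁ × G₂) : K →L[ℂ] K := adjoint (c z.1 * b z.2 * a z.1)

theorem adj_mul3 (x y z : K →L[ℂ] K) :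
    adjoint (x * y * z) = adjoint z * (adjoint y * adjoint x) := by
  change star (x * y * z) = _
  rw [star_mul, star_mul]
  rfl

theorem adj_mul2 (x y : K →L[ℂ] K) : adjoint (x * y) = adjoint y * adjoint x := by
  change star (x * y) = _
  rw [star_mul]
  rfl

variable [Countable Γ] [μ₁.IsMulLeftInvariant] [μ₂.IsMulLeftInvariant]

theorem fd_cba (hc : Fd ι₁ ρ c) (hb : Fd ι₂ ρ b) (ha : Fd ι₁ ρ a) :
    Fd (ι₁.prod ι₂) ρ (fun z : G₁ × G₂ => c z.1 * b z.2 * a z.1) :=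
  ((fd_fst ι₂ hc).mul (fd_snd ι₁ hb)).mul (fd_fst ι₂ ha)

theorem fd_zf (h : TRep ρ ω) (hc : Fd ι₁ ρ c) (hb : Fd ι₂ ρ b) (ha : Fd ι₁ ρ a) :
    Fd (ι₁.prod ι₂) ρ (zf c b a) := (fd_cba hc hb ha).adj h

theorem l2_cba (hc : Fd ι₁ ρ c) (hb : Gd ι₂ ρ ω μ₂ b) (ha : Gd ι₁ ρ ω μ₁ a) :
    L2 ω (μ₁.prod μ₂) (fun z : G₁ × G₂ => c z.1 * b z.2 * a z.1) := by
  have h1 := l2_ba hb.fd.continuous ha.fd.continuous hb.iso hb.ne_top ha.l2
  have h2 := L2.mul_left (fd_fst ι₂ hc).continuous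
    ((fd_snd ι₁ hb.fd).mul (fd_fst ι₂ ha.fd)).continuous (fd_fst ι₂ hc).bdd h1
  have e : (fun z : G₁ × G₂ => c z.1 * b z.2 * a z.1) = fun z => c z.1 * (b z.2 * a z.1) := by
    funext z
    rw [mul_assoc]
  rw [e]
  exact h2

theorem l2_zf (h : TRep ρ ω) (hc : Fd ι₁ ρ c) (hb : Gd ι₂ ρ ω μ₂ b) (ha : Gd ι₁ ρ ω μ₁ a) :
    L2 ω (μ₁.prod μ₂) (zf c b a) := L2.adj h (fd_cba hc hb.fd ha.fd) (l2_cba hc hb ha)

/-- **The trace identity.** -/
theorem key_tr (h : TRep ρ ω) (hc : Gd ι₁ ρ ω μ₁ c) (hc' : Gd ι₁ ρ ω μ₁ c')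
    (hb : Gd ι₂ ρ ω μ₂ b) (ha : Gd ι₁ ρ ω μ₁ a) (ha' : Gd ι₁ ρ ω μ₁ a') :
    ∫ z, ⟪adjoint (b z.2) (adjoint (c z.1) (c' z.1 ω)),
      a z.1 (adjoint (a' z.1) (adjoint (b z.2) ω))⟫_ℂ ∂(μ₁.prod μ₂) =
      ip ω (μ₁.prod μ₂) (zf c b a) (zf c' b a') := by
  have fc := fd_fst ι₂ hc.fd
  have fc' := fd_fst ι₂ hc'.fd
  have fb := fd_snd ι₁ hb.fd
  have fa := fd_fst ι₂ ha.fd
  have fa' := fd_fst ι₂ ha'.fd
  -- P, Q
  have fP : Fd (ι₁.prod ι₂) ρ (fun z : G₁ × G₂ =>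
      adjoint (b z.2) * (adjoint (c z.1) * c' z.1)) := (fb.adj h).mul ((fc.adj h).mul fc')
  have fQ : Fd (ι₁.prod ι₂) ρ (fun z : G₁ × G₂ =>
      a z.1 * (adjoint (a' z.1) * adjoint (b z.2))) := fa.mul ((fa'.adj h).mul (fb.adj h))
  have lP : L2 ω (μ₁.prod μ₂) (fun z : G₁ × G₂ =>
      adjoint (b z.2) * (adjoint (c z.1) * c' z.1)) := by
    refine l2_ba (a := fun x => adjoint (c x) * c' x) (b := fun y => adjoint (b y))
      (hb.fd.adj h).continuous ((hc.fd.adj h).mul hc'.fd).continuous hb.iso' hb.ne_top ?_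
    exact L2.mul_left (hc.fd.adj h).continuous hc'.fd.continuous (hc.fd.adj h).bdd hc'.l2
  have lQ : L2 ω (μ₁.prod μ₂) (fun z : G₁ × G₂ =>
      a z.1 * (adjoint (a' z.1) * adjoint (b z.2))) := by
    refine L2.mul_left fa.continuous ((fa'.adj h).mul (fb.adj h)).continuous fa.bdd ?_
    exact l2_ab (a := fun x => adjoint (a' x)) (b := fun y => adjoint (b y))
      (hb.fd.adj h).continuous (ha'.fd.adj h).continuous ha'.iso' ha'.ne_top
      (L2.adj h hb.fd hb.l2)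
  have e1 : ∫ z, ⟪adjoint (b z.2) (adjoint (c z.1) (c' z.1 ω)),
      a z.1 (adjoint (a' z.1) (adjoint (b z.2) ω))⟫_ℂ ∂(μ₁.prod μ₂) =
      ip ω (μ₁.prod μ₂) (fun z : G₁ × G₂ => adjoint (b z.2) * (adjoint (c z.1) * c' z.1))
        (fun z : G₁ × G₂ => a z.1 * (adjoint (a' z.1) * adjoint (b z.2))) := rfl
  -- P', Q'
  have fP' : Fd (ι₁.prod ι₂) ρ (fun z : G₁ × G₂ =>
      (c' z.1 * b z.2 * a' z.1) * adjoint (a z.1)) := ((fc'.mul fb).mul fa').mul (fa.adj h)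
  have fQ' : Fd (ι₁.prod ι₂) ρ (fun z : G₁ × G₂ => c z.1 * b z.2) := fc.mul fb
  have lP' : L2 ω (μ₁.prod μ₂) (fun z : G₁ × G₂ =>
      (c' z.1 * b z.2 * a' z.1) * adjoint (a z.1)) :=
    L2.mul_right h ((fc'.mul fb).mul fa') (fa.adj h) (l2_cba hc'.fd hb ha')
  have lQ' : L2 ω (μ₁.prod μ₂) (fun z : G₁ × G₂ => c z.1 * b z.2) :=
    l2_ab hb.fd.continuous hc.fd.continuous hc.iso hc.ne_top hb.l2
  rw [e1, ← ip_adj h fP fQ lP lQ]
  have e2 : ip ω (μ₁.prod μ₂)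
      (fun z : G₁ × G₂ => adjoint (a z.1 * (adjoint (a' z.1) * adjoint (b z.2))))
      (fun z : G₁ × G₂ => adjoint (adjoint (b z.2) * (adjoint (c z.1) * c' z.1))) =
      ip ω (μ₁.prod μ₂) (fun z : G₁ × G₂ => (c' z.1 * b z.2 * a' z.1) * adjoint (a z.1))
        (fun z : G₁ × G₂ => c z.1 * b z.2) := by
    unfold ip
    refine integral_congr_ae (Eventually.of_forall fun z => ?_)
    simp only [adj_mul2, adjoint_adjoint, mul_ap]
    rw [adjoint_inner_right]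
  rw [e2, ← ip_adj h fP' fQ' lP' lQ']
  unfold ip zf
  refine integral_congr_ae (Eventually.of_forall fun z => ?_)
  simp only [adj_mul2, adjoint_adjoint, mul_ap]
  exact (adjoint_inner_left _ _ _).symm

end prodf

end Vale.Agent.P092.QT.H796
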